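import Vale.Agent.P297.Defs

/-!
# The integral closure of a curve is a Dedekind domain; transport of orders of vanishing
-/

set_option linter.all false

namespace Vale.Agent.P297L1

open Vale.Agent.P297

theorem dedekind (A R E : Type) [CommRing A] [CommRing R] [Field E] [Algebra ℂ A] [Algebra ℂ E]
    [Algebra A E] [IsScalarTower ℂ A E] [Algebra A R] [Algebra R E] [IsScalarTower A R E]
    [IsIntegralClosure R A E] [Algebra.FiniteType ℂ A] (htr : Algebra.trdeg ℂ E = 1)
    (hfr : ∀ z : E, ∃ a b : A, z = algebraMap A E a / algebraMap A E b) :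
    IsDedekindDomain R ∧ IsFractionRing R E := by
  classical
  let φ : A →ₐ[ℂ] E := IsScalarTower.toAlgHom ℂ A E
  let B : Subalgebra ℂ E := φ.range
  have hsurj : Function.Surjective φ.rangeRestrict := φ.rangeRestrict_surjective
  have hB : Algebra.FiniteType ℂ B := Algebra.FiniteType.of_surjective φ.rangeRestrict hsurj
  have hBE : IsFractionRing B E := IsFractionRing.of_field B E fun z => by
    obtain ⟨a, b, h⟩ := hfr z
    exact ⟨φ.rangeRestrict a, φ.rangeRestrict b, h⟩
  obtain ⟨s, g, hinj, hint⟩ := exists_integral_inj_algHom_of_fg ℂ B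
  choose l hl using fun i : Fin s => hsurj (g (MvPolynomial.X i))
  let P := MvPolynomial (Fin s) ℂ
  let g' : P →ₐ[ℂ] A := MvPolynomial.aeval l
  have hg' : φ.rangeRestrict.comp g' = g := by
    refine MvPolynomial.algHom_ext fun i => ?_
    rw [AlgHom.comp_apply]
    change φ.rangeRestrict (MvPolynomial.aeval l (MvPolynomial.X i)) = _
    rw [MvPolynomial.aeval_X, hl]
  have hg'' : ∀ p, φ (g' p) = (g p : E) := fun p => by
    rw [← hg']
    rfl
  letI : Algebra P B := g.toRingHom.toAlgebra
  letI : Algebra P E := (φ.comp g').toRingHom.toAlgebra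
  letI : Algebra P R := ((algebraMap A R).comp g'.toRingHom).toAlgebra
  letI : Algebra P A := g'.toRingHom.toAlgebra
  have t1 : IsScalarTower P B E := .of_algebraMap_eq fun p => hg'' p
  have t2 : IsScalarTower P R E := .of_algebraMap_eq fun p =>
    IsScalarTower.algebraMap_apply A R E (g' p)
  have t3 : IsScalarTower P A E := .of_algebraMap_eq fun p => rfl
  have t4 : IsScalarTower ℂ P E := .of_algebraMap_eq fun c => ((φ.comp g').commutes c).symm
  have hPB : Algebra.IsIntegral P B := ⟨hint⟩
  have hPE : Function.Injective (algebraMap P E) := by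
    intro p q h
    apply hinj
    apply Subtype.ext
    rw [← hg'', ← hg'']
    exact h
  have f1 : FaithfulSMul P E := (faithfulSMul_iff_algebraMap_injective P E).2 hPE
  let K := FractionRing P
  letI : Algebra K E := FractionRing.liftAlgebra P E
  have t5 : IsScalarTower P K E := FractionRing.isScalarTower_liftAlgebra P E
  have halg : Algebra.IsAlgebraic K E := isAlgebraic_of_isFractionRing P B K E
  have halg' : Algebra.IsAlgebraic P E :=
    (IsFractionRing.comap_isAlgebraic_iff (A := P) (K := K) (C := E)).2 halg
  have hs : s = 1 := by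
    have h1 := trdeg_add_eq ℂ P (A := E)
    rw [htr, trdeg_eq_zero (R := P) (A := E), add_zero, MvPolynomial.trdeg_of_isDomain] at h1
    simpa using h1
  have hpid : IsPrincipalIdealRing P := by
    subst hs
    exact IsPrincipalIdealRing.of_surjective
      (MvPolynomial.uniqueAlgEquiv ℂ (Fin 1)).symm.toRingEquiv.toRingHom
      (MvPolynomial.uniqueAlgEquiv ℂ (Fin 1)).symm.surjective
  have t6 : IsScalarTower ℂ K E := .of_algebraMap_eq fun c => by
    rw [IsScalarTower.algebraMap_apply ℂ P K, ← IsScalarTower.algebraMap_apply P K E,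
      ← IsScalarTower.algebraMap_apply ℂ P E]
  have e1 : Algebra.EssFiniteType B E := Algebra.EssFiniteType.of_isLocalization E (nonZeroDivisors B)
  have e2 : Algebra.EssFiniteType ℂ E := Algebra.EssFiniteType.comp ℂ B E
  have e3 : Algebra.EssFiniteType K E := Algebra.EssFiniteType.of_comp ℂ K E
  have hfin : Module.Finite K E := Algebra.finite_of_essFiniteType_of_isAlgebraic
  have hc : CharZero K := algebraRat.charZero K
  have hR : Function.Injective (algebraMap R E) := IsIntegralClosure.algebraMap_injective R A E
  have hd : IsDomain R := hR.isDomain (algebraMap R E)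
  have hcl : IsIntegralClosure R P E := by
    refine ⟨hR, fun {x} => ?_⟩
    rw [← IsIntegralClosure.isIntegral_iff (R := A) (A := R) (B := E)]
    refine ⟨fun h => h.tower_top, fun h => ?_⟩
    letI : Algebra A B := φ.rangeRestrict.toRingHom.toAlgebra
    have : IsScalarTower A B E := .of_algebraMap_eq fun a => rfl
    have h2 : IsIntegral B x := h.tower_top
    exact isIntegral_trans (R := P) x h2
  exact ⟨IsIntegralClosure.isDedekindDomain P K E R,
    IsIntegralClosure.isFractionRing_of_finite_extension P K E R⟩

/-- The order of vanishing is preserved by isomorphisms of discrete valuation rings. -/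
theorem ordFrac_map {R R' K K' : Type} [CommRing R] [IsDomain R] [IsDiscreteValuationRing R]
    [CommRing R'] [IsDomain R'] [IsDiscreteValuationRing R'] [Field K] [Field K'] [Algebra R K]
    [IsFractionRing R K] [Algebra R' K'] [IsFractionRing R' K'] (φ : R ≃+* R') (e : K →+* K')
    (h : ∀ a, e (algebraMap R K a) = algebraMap R' K' (φ a)) (u : K) :
    Ring.ordFrac R' (e u) = Ring.ordFrac R u := by
  obtain ⟨ϖ, hϖ⟩ := IsDiscreteValuationRing.exists_irreducible R
  have hϖ' : Irreducible (φ ϖ) := (MulEquiv.irreducible_iff φ.toMulEquiv).2 hϖ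
  have key : ∀ a : R, Ring.ordFrac R' (e (algebraMap R K a)) = Ring.ordFrac R (algebraMap R K a) := by
    intro a
    by_cases ha : a = 0
    · simp [ha]
    obtain ⟨n, v, rfl⟩ := IsDiscreteValuationRing.eq_unit_mul_pow_irreducible ha hϖ
    rw [h, map_mul φ, map_pow φ, map_mul, map_mul, map_pow, map_pow, map_mul, map_mul, map_pow,
      map_pow, Ring.ordFrac_irreducible hϖ, Ring.ordFrac_irreducible hϖ',
      Ring.ordFrac_of_isUnit v.isUnit, Ring.ordFrac_of_isUnit (v.isUnit.map φ)]
  obtain ⟨a, b, -, rfl⟩ := IsFractionRing.div_surjective (A := R) u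
  rw [map_div₀, map_div₀, map_div₀, key, key]

/-- The place of a discrete valuation ring with the fraction field `E`. -/
theorem exists_place (R E : Type) [CommRing R] [IsDomain R] [IsDiscreteValuationRing R] [Field E]
    [Algebra R E] [IsFractionRing R E] :
    ∃ (v : Place E) (φ : R ≃+* v.ring), ∀ a, (φ a : E) = algebraMap R E a := by
  have hinj : Function.Injective (algebraMap R E) := IsFractionRing.injective R E
  let V : ValuationSubring E :=
    { (algebraMap R E).range with
      mem_or_inv_mem' := fun x => by
        rcases ValuationRing.isInteger_or_isInteger R x with h | h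
        · exact Or.inl h
        · exact Or.inr h }
  let ψ : R →+* V := (algebraMap R E).codRestrict V fun a => ⟨a, rfl⟩
  have hψ : Function.Bijective ψ := ⟨fun a b h => hinj (congrArg Subtype.val h), by
    rintro ⟨_, a, rfl⟩
    exact ⟨a, rfl⟩⟩
  let φ : R ≃+* V := RingEquiv.ofBijective ψ hψ
  exact ⟨⟨V, IsDiscreteValuationRing.RingEquivClass.isDiscreteValuationRing φ⟩, φ, fun a => rfl⟩

theorem place_ext {E : Type} [Field E] {v w : Place E} (h : v.ring ≤ w.ring) : v = w := by
  have h1 := v.dvr
  have h2 := w.dvr
  have h3 : w.ring ≠ ⊤ := fun h0 => by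
    apply IsDiscreteValuationRing.not_isField w.ring
    rw [h0]
    exact (Subring.topEquiv (R := E)).toMulEquiv.isField (Field.toIsField E)
  have h4 : v.ring = w.ring := ValuationSubring.eq_of_le_of_ne_top v.ring h h3
  cases v
  cases w
  cases h4
  rfl

end Vale.Agent.P297L1
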