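import Vale.Agent.P297L1.Alg
import Mathlib.AlgebraicGeometry.OrderOfVanishing
import Mathlib.AlgebraicGeometry.Morphisms.Integral

/-!
# The points of a regular curve are the places centred on it
-/

set_option linter.all false

open CategoryTheory AlgebraicGeometry

namespace Vale.Agent.P297L1

open Vale.Agent.P297

variable {N S : Scheme.{0}} {E : Type} [Field E]

/-- A place has at most one centre on a separated scheme. -/
theorem center_unique [N.IsSeparated] {t : Spec (.of E) ⟶ N} {v : Place E} {y y' : N}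
    (h : IsCenter t v y) (h' : IsCenter t v y') : y = y' := by
  obtain ⟨g, hg, rfl⟩ := h
  obtain ⟨g', hg', rfl⟩ := h'
  let Q : ValuativeCommSq (Limits.terminal.from N) :=
    { R := v.ring, K := E, i₁ := t, i₂ := Limits.terminal.from _,
      commSq := ⟨Limits.terminal.hom_ext _ _⟩ }
  have h1 := IsSeparated.valuativeCriterion (Limits.terminal.from N) Q
  have h2 : (⟨g, hg, Limits.terminal.hom_ext _ _⟩ : Q.commSq.LiftStruct) =
      ⟨g', hg', Limits.terminal.hom_ext _ _⟩ := Subsingleton.elim _ _
  have h3 : g = g' := congrArg CommSq.LiftStruct.l h2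
  rw [h3]

/-- The centres lift along universally closed morphisms. -/
theorem center_comp (t : Spec (.of E) ⟶ N) (ν : N ⟶ S) [hν : UniversallyClosed ν] (v : Place E)
    (x : S) : IsCenter (t ≫ ν) v x ↔ ∃ y, ν y = x ∧ IsCenter t v y := by
  constructor
  · rintro ⟨g, hg, rfl⟩
    have h0 : ValuativeCriterion.Existence ν := by
      have h := hν
      rw [UniversallyClosed.eq_valuativeCriterion] at h
      exact h.1
    let Q : ValuativeCommSq ν :=
      { R := v.ring, K := E, i₁ := t, i₂ := g, commSq := ⟨hg.symm⟩ }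
    obtain ⟨⟨l, hl, hl'⟩⟩ := (h0 Q).exists_lift
    refine ⟨l (IsLocalRing.closedPoint v.ring), ?_, l, hl, rfl⟩
    have h2 : l ≫ ν = g := hl'
    rw [← h2]
    rfl
  · rintro ⟨y, rfl, l, hl, rfl⟩
    exact ⟨l ≫ ν, by rw [← Category.assoc, hl], rfl⟩

variable [IsIntegral N]

/-- The generic point of `N` with the function field identified with `E`. -/
noncomputable abbrev gen (e : N.functionField ≃+* E) : Spec (.of E) ⟶ N :=
  Spec.map (CommRingCat.ofHom e.toRingHom) ≫ N.fromSpecStalk (genericPoint N)

theorem gen_eq (e : N.functionField ≃+* E) (y : N) :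
    gen e = Spec.map (CommRingCat.ofHom (e.toRingHom.comp
      (algebraMap (N.presheaf.stalk y) N.functionField))) ≫ N.fromSpecStalk y := by
  rw [gen, ← Scheme.SpecMap_stalkSpecializes_fromSpecStalk
    ((genericPoint_spec N).specializes (y := y) trivial), ← Category.assoc, ← Spec.map_comp]
  rfl

theorem mem_of_center (e : N.functionField ≃+* E) {w : Place E} {y : N}
    (h : IsCenter (gen e) w y) (a : N.presheaf.stalk y) :
    e (algebraMap (N.presheaf.stalk y) N.functionField a) ∈ w.ring := by
  obtain ⟨l, hl, rfl⟩ := h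
  have h1 := Scheme.Spec_stalkClosedPointTo_fromSpecStalk l
  rw [gen_eq e (l (IsLocalRing.closedPoint w.ring))] at hl
  have h2 : w.generic ≫ Spec.map (Scheme.stalkClosedPointTo l) ≫ N.fromSpecStalk _ =
      w.generic ≫ l := congrArg (w.generic ≫ ·) h1
  rw [hl, ← Category.assoc, cancel_mono, ← Spec.map_comp, Spec.map_inj] at h2
  have h3 := congrArg (fun φ => φ.hom a) h2
  have h4 : (((Scheme.stalkClosedPointTo l).hom a : w.ring) : E) =
      e (algebraMap _ N.functionField a) := h3
  rw [← h4]
  exact Subtype.property _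

theorem coheight_eq_one {y : N} (hy : IsDiscreteValuationRing (N.presheaf.stalk y)) :
    Order.coheight y = 1 := by
  have h1 := ringKrullDim_stalk_eq_coheight y
  rw [IsDiscreteValuationRing.ringKrullDim_eq_one] at h1
  exact_mod_cast h1.symm

theorem exists_center [IsLocallyNoetherian N] (e : N.functionField ≃+* E) (y : N)
    (hy : IsDiscreteValuationRing (N.presheaf.stalk y)) :
    ∃ v : Place E, IsCenter (gen e) v y ∧ (∀ w, IsCenter (gen e) w y → v = w) ∧
      ∀ u, u ≠ 0 → Scheme.ord u y = v.ord (e u) := by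
  letI : Algebra (N.presheaf.stalk y) E :=
    (e.toRingHom.comp (algebraMap (N.presheaf.stalk y) N.functionField)).toAlgebra
  have hfr : IsFractionRing (N.presheaf.stalk y) E :=
    IsLocalization.isLocalization_of_algEquiv (nonZeroDivisors (N.presheaf.stalk y))
      (AlgEquiv.ofRingEquiv (f := e) fun a => rfl)
  obtain ⟨v, φ, hφ⟩ := exists_place (N.presheaf.stalk y) E
  have hv := v.dvr
  refine ⟨v, ⟨Spec.map (CommRingCat.ofHom φ.toRingHom) ≫ N.fromSpecStalk y, ?_, ?_⟩,
    fun w hw => place_ext fun z hz => ?_, fun u hu => ?_⟩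
  · rw [gen_eq e y, ← Category.assoc, ← Spec.map_comp]
    congr 2
    ext a
    exact hφ a
  · let ψ : N.presheaf.stalk y ⟶ CommRingCat.of v.ring := CommRingCat.ofHom φ.toRingHom
    have : IsLocalHom ψ.hom := isLocalHom_toRingHom φ
    have h1 := Spec_closedPoint (f := ψ)
    exact (congrArg (N.fromSpecStalk y) h1).trans Scheme.fromSpecStalk_closedPoint
  · obtain ⟨a, ha⟩ := φ.surjective ⟨z, hz⟩
    have h1 : z = e (algebraMap (N.presheaf.stalk y) N.functionField a) := by
      have h2 := hφ a
      rw [ha] at h2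
      exact h2
    rw [h1]
    exact mem_of_center e hw a
  · have h1 := coheight_eq_one hy
    rw [Scheme.ord_eq_iff h1 hu]
    have h2 := ordFrac_map (K := N.functionField) (K' := E) φ e.toRingHom
      (fun a => (hφ a).symm) u
    have h3 : Ring.ordFrac v.ring (e u) ≠ 0 := by
      rw [map_ne_zero]
      exact (map_ne_zero e).2 hu
    exact h2.symm.trans (WithZero.exp_log h3).symm

/-- The divisor of a rational function on a regular curve, pushed forward. -/
theorem sum_eq [IsLocallyNoetherian N] [N.IsSeparated] (e : N.functionField ≃+* E)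
    (ν : N ⟶ S) [UniversallyClosed ν] (x : S)
    (hD : ∀ y, ν y = x → IsDiscreteValuationRing (N.presheaf.stalk y))
    (u : N.functionField) (hu : u ≠ 0) :
    ∑ᶠ y : {y : N // ν y = x}, Scheme.ord u y.1 = divCoeff (gen e ≫ ν) (e u) x := by
  choose V h1 h2 h3 using fun y : {y : N // ν y = x} => exists_center e y.1 (hD y.1 y.2)
  let Φ : {y : N // ν y = x} → {v : Place E // IsCenter (gen e ≫ ν) v x} :=
    fun y => ⟨V y, (center_comp _ ν _ x).2 ⟨y.1, y.2, h1 y⟩⟩
  refine finsum_eq_of_bijective Φ ⟨fun y y' h => ?_, fun v => ?_⟩ fun y => h3 y u hu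
  · have h4 : V y = V y' := congrArg Subtype.val h
    exact Subtype.ext (center_unique (h1 y) (h4 ▸ h1 y'))
  · obtain ⟨y, hy, hc⟩ := (center_comp _ ν _ x).1 v.2
    exact ⟨⟨y, hy⟩, Subtype.ext (h2 ⟨y, hy⟩ v.1 hc)⟩

/-- On a curve all points but the generic one are closed. -/
theorem isMin_of (hD : ∀ y, y ≠ genericPoint N → IsDiscreteValuationRing (N.presheaf.stalk y))
    {y : N} (hy : y ≠ genericPoint N) : IsClosed ({y} : Set N) := by
  rw [← closure_eq_iff_isClosed]
  refine Set.Subset.antisymm (fun z hz => ?_) subset_closure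
  have h1 : y ⤳ z := specializes_iff_mem_closure.2 hz
  by_contra h2
  have h3 : z ≠ genericPoint N := fun h => hy
    (((genericPoint_spec N).specializes (y := y) trivial).antisymm (h ▸ h1)).eq.symm
  have h4 : z < y := ⟨h1, fun h5 => h2 (Specializes.antisymm h5 h1).eq⟩
  have h5 := Order.coheight_strictAnti h4 (by rw [coheight_eq_one (hD y hy)]; simp)
  rw [coheight_eq_one (hD y hy), coheight_eq_one (hD z h3)] at h5
  exact lt_irrefl _ h5

omit [IsIntegral N] in
/-- The residue degree of an integral morphism at closed points. -/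
theorem residueDegree_eq_one (ν : N ⟶ S) [IsIntegralHom ν] (f : S ⟶ Spec (.of ℂ))
    [LocallyOfFiniteType f] (y : N) (hy : IsClosed ({y} : Set N)) : ν.residueDegree y = 1 := by
  have hx : IsClosed ({ν y} : Set S) := by
    have h := ν.isClosedMap _ hy
    rwa [Set.image_singleton] at h
  have h1 : IsClosedImmersion (N.fromSpecResidueField y) :=
    isClosed_singleton_iff_isClosedImmersion.1 hy
  have h2 : IsIntegralHom (Spec.map (ν.residueFieldMap y) ≫ S.fromSpecResidueField (ν y)) := by
    rw [Scheme.Hom.SpecMap_residueFieldMap_fromSpecResidueField]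
    infer_instance
  have h3 : IsIntegralHom (Spec.map (ν.residueFieldMap y)) :=
    IsIntegralHom.of_comp _ (S.fromSpecResidueField (ν y))
  have h4 : IsAlgClosed (S.residueField (ν y)) :=
    IsAlgClosed.of_ringEquiv ℂ _ (residueFieldIsoBase f _ hx).symm.commRingCatIsoToRingEquiv
  have h5 := IsAlgClosed.ringHom_bijective_of_isIntegral _ (IsIntegralHom.SpecMap_iff.1 h3)
  letI := (ν.residueFieldMap y).hom.toAlgebra
  exact Module.finrank_of_bijective_algebraMap h5

end Vale.Agent.P297L1
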