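import Vale.Agent.P297L1.Cen
import Mathlib.AlgebraicGeometry.Normalization

/-!
# The normalization of a curve
-/

set_option linter.all false

open CategoryTheory AlgebraicGeometry

namespace Vale.Agent.P297L1

open Vale.Agent.P297

variable {X C S : Scheme.{0}} {E : Type} [Field E]

/-- The value of a section at an `E`-point. -/
noncomputable def ev (t : Spec (.of E) ⟶ X) (U : X.Opens) (h : ⊤ ≤ t ⁻¹ᵁ U) :
    Γ(X, U) ⟶ .of E :=
  t.appLE U ⊤ h ≫ (Scheme.ΓSpecIso (.of E)).hom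

theorem top_le {t : Spec (.of E) ⟶ X} {U : X.Opens}
    (h : t (IsLocalRing.closedPoint E) ∈ U) : ⊤ ≤ t ⁻¹ᵁ U :=
  (Scheme.preimage_eq_top_of_closedPoint_mem t h).ge

theorem germ_ev {p : X} (ε : X.presheaf.stalk p ⟶ .of E) {t : Spec (.of E) ⟶ X}
    (ht : Spec.map ε ≫ X.fromSpecStalk p = t) (U : X.Opens) (hp : p ∈ U) (h : ⊤ ≤ t ⁻¹ᵁ U) :
    X.presheaf.germ U p hp ≫ ε = ev t U h := by
  subst ht
  have h1 : (⊤ : (Spec (X.presheaf.stalk p)).Opens) ≤ X.fromSpecStalk p ⁻¹ᵁ U :=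
    (Scheme.preimage_eq_top_of_closedPoint_mem (X.fromSpecStalk p)
      (by rw [Scheme.fromSpecStalk_closedPoint]; exact hp)).ge
  have h2 : (X.fromSpecStalk p).appLE U ⊤ h1 =
      X.presheaf.germ U p hp ≫ (Scheme.ΓSpecIso _).inv := by
    rw [Scheme.Hom.appLE, Scheme.fromSpecStalk_app hp, Category.assoc, Category.assoc,
      ← Functor.map_comp]
    congr 1
  have h3 := Scheme.Hom.appLE_comp_appLE (Spec.map ε) (X.fromSpecStalk p) U ⊤ ⊤ h1 le_rfl
  have h4 : (Spec.map ε).appLE ⊤ ⊤ le_rfl = (Spec.map ε).appTop :=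
    Scheme.Hom.appLE_eq_app (Spec.map ε) (U := ⊤)
  rw [ev, ← h3, h2, h4, Category.assoc, Category.assoc, Scheme.ΓSpecIso_naturality,
    Iso.inv_hom_id_assoc]

theorem appLE_ev {Y : Scheme.{0}} (t : Spec (.of E) ⟶ X) (g : X ⟶ Y) {γ : Spec (.of E) ⟶ Y}
    (hγ : t ≫ g = γ) (U : Y.Opens) (V : X.Opens) (e : V ≤ g ⁻¹ᵁ U) (h : ⊤ ≤ t ⁻¹ᵁ V)
    (h' : ⊤ ≤ γ ⁻¹ᵁ U) : g.appLE U V e ≫ ev t V h = ev γ U h' := by
  subst hγ
  rw [ev, ev, ← Category.assoc, Scheme.Hom.appLE_comp_appLE]

theorem ev_spec {R : CommRingCat.{0}} (g : Spec (.of E) ⟶ Spec R) (h : ⊤ ≤ g ⁻¹ᵁ ⊤) :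
    (Scheme.ΓSpecIso R).inv ≫ ev g ⊤ h = Spec.preimage g := by
  obtain ⟨φ, rfl⟩ := Spec.map_surjective g
  have h4 : (Spec.map φ).appLE ⊤ ⊤ h = (Spec.map φ).appTop :=
    Scheme.Hom.appLE_eq_app (Spec.map φ) (U := ⊤)
  rw [ev, h4, Scheme.ΓSpecIso_naturality, Iso.inv_hom_id_assoc, Spec.preimage_map]

theorem exists_stalkHom (t : Spec (.of E) ⟶ X) {p : X} (h : t (IsLocalRing.closedPoint E) = p) :
    ∃ ε : X.presheaf.stalk p ⟶ .of E, Spec.map ε ≫ X.fromSpecStalk p = t := by
  subst h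
  exact ⟨_, Scheme.Spec_stalkClosedPointTo_fromSpecStalk t⟩

variable (γ : Spec (.of E) ⟶ C) [QuasiCompact γ] [QuasiSeparated γ]

theorem toNormalization_pt :
    γ.toNormalization (IsLocalRing.closedPoint E) = genericPoint γ.normalization := by
  refine ((genericPoint_spec γ.normalization).eq ?_).symm
  have h1 := γ.toNormalization.denseRange.closure_range
  have h2 : Set.range γ.toNormalization = {γ.toNormalization (IsLocalRing.closedPoint E)} := by
    ext z
    constructor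
    · rintro ⟨a, rfl⟩
      have h3 : a = IsLocalRing.closedPoint E := Subsingleton.elim (α := PrimeSpectrum E) _ _
      rw [h3]
      rfl
    · rintro rfl
      exact ⟨_, rfl⟩
  rw [h2] at h1
  exact h1

theorem from_gen :
    γ.fromNormalization (genericPoint γ.normalization) = γ (IsLocalRing.closedPoint E) := by
  rw [← toNormalization_pt]
  exact congrArg (fun g : Spec (.of E) ⟶ C => g (IsLocalRing.closedPoint E))
    γ.toNormalization_fromNormalization

theorem top_le_nor {U : C.Opens} (h : ⊤ ≤ γ ⁻¹ᵁ U) :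
    ⊤ ≤ γ.toNormalization ⁻¹ᵁ (γ.fromNormalization ⁻¹ᵁ U) := by
  rw [← Scheme.Hom.comp_preimage, Scheme.Hom.toNormalization_fromNormalization]
  exact h

/-- The sections of the normalization are the integral closure. -/
theorem isIntegralClosure {U : C.Opens} (hU : IsAffineOpen U) (h : ⊤ ≤ γ ⁻¹ᵁ U) :
    letI := (ev γ U h).hom.toAlgebra
    letI := (ev γ.toNormalization _ (top_le_nor γ h)).hom.toAlgebra
    IsIntegralClosure Γ(γ.normalization, γ.fromNormalization ⁻¹ᵁ U) Γ(C, U) E := by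
  letI := (ev γ U h).hom.toAlgebra
  letI := (ev γ.toNormalization _ (top_le_nor γ h)).hom.toAlgebra
  letI := (γ.app U).hom.toAlgebra
  have e0 : γ ⁻¹ᵁ U = ⊤ := top_le_iff.1 h
  let i : Γ(Spec (.of E), γ ⁻¹ᵁ U) ≅ .of E :=
    (Spec (.of E)).presheaf.mapIso (eqToIso e0.symm).op ≪≫ Scheme.ΓSpecIso (.of E)
  have hi : ∀ {Y : Scheme.{0}} (g : Spec (.of E) ⟶ Y) (W : Y.Opens) (e : γ ⁻¹ᵁ U ≤ g ⁻¹ᵁ W)
      (e' : ⊤ ≤ g ⁻¹ᵁ W), g.appLE W _ e ≫ i.hom = ev g W e' := by
    intro Y g W e e'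
    rw [ev, ← Scheme.Hom.appLE_map g e (eqToHom e0.symm).op, Category.assoc]
    rfl
  let j : Γ(Spec (.of E), γ ⁻¹ᵁ U) ≃ₐ[Γ(C, U)] E :=
    AlgEquiv.ofRingEquiv (f := i.commRingCatIsoToRingEquiv) fun a => by
      have h1 := hi γ U le_rfl h
      rw [Scheme.Hom.appLE_eq_app] at h1
      exact congrArg (fun φ => φ.hom a) h1
  have h2 := γ.normalizationObjIso_hom_val hU
  have h3 : ∀ a, algebraMap Γ(γ.normalization, γ.fromNormalization ⁻¹ᵁ U) E a =
      j ((γ.normalizationObjIso hU).hom.hom a).1 := by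
    intro a
    have h4 := hi γ.toNormalization (γ.fromNormalization ⁻¹ᵁ U)
      (le_top.trans (top_le_nor γ h)) (top_le_nor γ h)
    rw [← h2] at h4
    exact (congrArg (fun φ => φ.hom a) h4).symm
  have hb := (γ.normalizationObjIso hU).commRingCatIsoToRingEquiv.bijective
  refine ⟨fun a b hab => ?_, fun {x} => ⟨fun hx => ?_, ?_⟩⟩
  · rw [h3, h3] at hab
    exact hb.1 (Subtype.ext (j.injective hab))
  · obtain ⟨a, ha⟩ := hb.2 ⟨j.symm x, hx.map j.symm⟩
    refine ⟨a, ?_⟩
    rw [h3]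
    exact (congrArg (fun z => j z.1) ha).trans (j.apply_symm_apply x)
  · rintro ⟨a, rfl⟩
    rw [h3]
    exact IsIntegral.map j ((γ.normalizationObjIso hU).hom.hom a).2

variable (f : C ⟶ Spec (.of ℂ)) [LocallyOfFiniteType f]
  (htr : letI := (constHom f γ).toAlgebra; Algebra.trdeg ℂ E = 1)
  {p : C} (ε : C.presheaf.stalk p ⟶ .of E) (hε : Function.Surjective ε.hom)
  (hγ : Spec.map ε ≫ C.fromSpecStalk p = γ)

include hε hγ in
omit [QuasiCompact γ] [QuasiSeparated γ] in
theorem pt_eq : γ (IsLocalRing.closedPoint E) = p := by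
  subst hγ
  have : IsLocalHom ε.hom := IsLocalHom.of_surjective _ hε
  exact (congrArg (C.fromSpecStalk p) (Spec_closedPoint (f := ε))).trans
    Scheme.fromSpecStalk_closedPoint

include htr hε hγ in
theorem dedekind_nor {U : C.Opens} (hU : IsAffineOpen U) (h : ⊤ ≤ γ ⁻¹ᵁ U) :
    letI := (ev γ.toNormalization _ (top_le_nor γ h)).hom.toAlgebra
    IsDedekindDomain Γ(γ.normalization, γ.fromNormalization ⁻¹ᵁ U) ∧
      IsFractionRing Γ(γ.normalization, γ.fromNormalization ⁻¹ᵁ U) E := by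
  letI := (ev γ U h).hom.toAlgebra
  letI := (ev γ.toNormalization _ (top_le_nor γ h)).hom.toAlgebra
  letI := (constHom f γ).toAlgebra
  letI := (γ.fromNormalization.appLE U _ le_rfl).hom.toAlgebra
  let c : CommRingCat.of ℂ ⟶ Γ(C, U) := (Scheme.ΓSpecIso _).inv ≫ f.appLE ⊤ U le_top
  letI : Algebra ℂ Γ(C, U) := c.hom.toAlgebra
  have h1 := isIntegralClosure γ hU h
  have t1 : IsScalarTower Γ(C, U) Γ(γ.normalization, γ.fromNormalization ⁻¹ᵁ U) E :=
    .of_algebraMap_eq fun a => (congrArg (fun φ => φ.hom a)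
      (appLE_ev γ.toNormalization γ.fromNormalization γ.toNormalization_fromNormalization U _
        le_rfl (top_le_nor γ h) h)).symm
  have t2 : IsScalarTower ℂ Γ(C, U) E := .of_algebraMap_eq fun a => by
    have h2 : c ≫ ev γ U h = Spec.preimage (γ ≫ f) := by
      rw [← ev_spec (γ ≫ f) le_top, ← appLE_ev γ f rfl ⊤ U le_top h le_top, Category.assoc]
    exact (congrArg (fun φ => φ.hom a) h2).symm
  have hft : Algebra.FiniteType ℂ Γ(C, U) :=
    (f.finiteType_appLE (isAffineOpen_top _) hU le_top).comp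
      (RingHom.FiniteType.of_surjective _
        (Scheme.ΓSpecIso (.of ℂ)).symm.commRingCatIsoToRingEquiv.surjective)
  have hp : p ∈ U := by
    rw [← pt_eq γ ε hε hγ]
    exact h trivial
  refine dedekind Γ(C, U) _ E htr fun z => ?_
  obtain ⟨s, rfl⟩ := hε z
  letI := C.presheaf.algebra_section_stalk ⟨p, hp⟩
  have hl := hU.isLocalization_stalk ⟨p, hp⟩
  obtain ⟨⟨a, b⟩, hab⟩ := IsLocalization.surj (hU.primeIdealOf ⟨p, hp⟩).asIdeal.primeCompl s
  have hg : ∀ a, ε.hom (algebraMap Γ(C, U) (C.presheaf.stalk p) a) = algebraMap Γ(C, U) E a :=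
    fun a => congrArg (fun φ => φ.hom a) (germ_ev ε hγ U hp h)
  have hb : algebraMap Γ(C, U) E b ≠ 0 := by
    rw [← hg]
    exact ((IsLocalization.map_units (C.presheaf.stalk p) b).map ε.hom).ne_zero
  refine ⟨a, b, ?_⟩
  rw [eq_div_iff hb, ← hg, ← hg, ← map_mul]
  exact congrArg ε.hom hab

theorem exists_chart (y : γ.normalization) : ∃ U : C.Opens, IsAffineOpen U ∧ ⊤ ≤ γ ⁻¹ᵁ U ∧
    y ∈ γ.fromNormalization ⁻¹ᵁ U := by
  obtain ⟨_, ⟨U, hU, rfl⟩, hy, -⟩ := C.isBasis_affineOpens.exists_subset_of_mem_open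
    (Set.mem_univ (γ.fromNormalization y)) isOpen_univ
  refine ⟨U, hU, top_le ?_, hy⟩
  rw [← from_gen]
  exact ((genericPoint_spec γ.normalization).specializes (y := y) trivial).mem_open
    (γ.fromNormalization ⁻¹ᵁ U).isOpen hy

include htr hε hγ in
theorem noeth : IsLocallyNoetherian γ.normalization := by
  refine isLocallyNoetherian_of_affine_cover
    (ι := {U : C.Opens // IsAffineOpen U ∧ ⊤ ≤ γ ⁻¹ᵁ U})
    (S := fun U => ⟨γ.fromNormalization ⁻¹ᵁ U.1, U.2.1.preimage _⟩) ?_ fun U => ?_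
  · refine top_le_iff.1 fun y _ => ?_
    obtain ⟨U, h1, h2, h3⟩ := exists_chart γ y
    exact TopologicalSpace.Opens.mem_iSup.2 ⟨⟨U, h1, h2⟩, h3⟩
  · have h1 := (dedekind_nor γ f htr ε hε hγ U.2.1 U.2.2).1
    exact (inferInstance : IsNoetherianRing Γ(γ.normalization, γ.fromNormalization ⁻¹ᵁ U.1))

include htr hε hγ in
theorem dvr (y : γ.normalization) (hy : y ≠ genericPoint γ.normalization) :
    IsDiscreteValuationRing (γ.normalization.presheaf.stalk y) := by
  obtain ⟨U, h1, h2, h3⟩ := exists_chart γ y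
  have hd := (dedekind_nor γ f htr ε hε hγ h1 h2).1
  have hV := h1.preimage γ.fromNormalization
  letI := γ.normalization.presheaf.algebra_section_stalk ⟨y, h3⟩
  have hl := hV.isLocalization_stalk ⟨y, h3⟩
  have hne : Nonempty (γ.fromNormalization ⁻¹ᵁ U : γ.normalization.Opens) := ⟨⟨y, h3⟩⟩
  refine IsLocalization.AtPrime.isDiscreteValuationRing_of_dedekind_domain _
    (P := (hV.primeIdealOf ⟨y, h3⟩).asIdeal) (fun h0 => hy ?_) _
  have h4 := hV.primeIdealOf_genericPoint
  rw [genericPoint_eq_bot_of_affine] at h4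
  have h5 : hV.primeIdealOf ⟨y, h3⟩ = ⊥ := PrimeSpectrum.ext h0
  have h6 := congrArg hV.fromSpec (h5.trans h4.symm)
  rw [hV.fromSpec_primeIdealOf, hV.fromSpec_primeIdealOf] at h6
  exact h6

include htr hε hγ in
theorem exists_equiv : ∃ e : γ.normalization.functionField ≃+* E,
    gen e = γ.toNormalization := by
  obtain ⟨δ, hδ⟩ := exists_stalkHom γ.toNormalization (toNormalization_pt γ)
  obtain ⟨U, h1, h2, h3⟩ := exists_chart γ (genericPoint γ.normalization)
  letI := (ev γ.toNormalization _ (top_le_nor γ h2)).hom.toAlgebra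
  obtain ⟨hd, hf⟩ := dedekind_nor γ f htr ε hε hγ h1 h2
  let δ' : γ.normalization.functionField →+* E := δ.hom
  have hg : ∀ a, δ' (γ.normalization.presheaf.germ _ _ h3 a) =
      algebraMap Γ(γ.normalization, γ.fromNormalization ⁻¹ᵁ U) E a :=
    fun a => congrArg (fun φ => φ.hom a) (germ_ev δ hδ _ h3 (top_le_nor γ h2))
  have hb : Function.Bijective δ' := ⟨δ'.injective, fun z => by
    obtain ⟨a, b, -, rfl⟩ := IsFractionRing.div_surjective
      (A := Γ(γ.normalization, γ.fromNormalization ⁻¹ᵁ U)) z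
    exact ⟨_, by rw [← hg, ← hg, ← map_div₀]⟩⟩
  exact ⟨RingEquiv.ofBijective δ' hb, hδ⟩

include f htr hε hγ in
omit [QuasiCompact γ] [QuasiSeparated γ] in
/-- The generic point of a curve is not closed. -/
theorem not_closed : ¬ IsClosed ({p} : Set C) := by
  intro hp
  letI := (constHom f γ).toAlgebra
  have : IsLocalHom ε.hom := IsLocalHom.of_surjective _ hε
  have h1 : Spec.map ((residueFieldIsoBase f p hp).inv ≫ Scheme.descResidueField ε) = γ ≫ f := by
    rw [Spec.map_comp, SpecMap_residueFieldIsoBase_inv, ← Category.assoc,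
      Scheme.descResidueField_fromSpecResidueField, hγ]
  have h2 : Function.Surjective (algebraMap ℂ E) := by
    intro z
    obtain ⟨s, rfl⟩ := hε z
    refine ⟨(residueFieldIsoBase f p hp).hom.hom ((C.residue p).hom s), ?_⟩
    change (Spec.preimage (γ ≫ f)).hom _ = _
    rw [← h1, Spec.preimage_map]
    exact (congrArg (fun φ => φ.hom ((C.residue p).hom s))
      ((residueFieldIsoBase f p hp).hom_inv_id_assoc (Scheme.descResidueField ε))).trans
      (congrArg (fun φ => φ.hom s) (Scheme.residue_descResidueField ε))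
  have h3 : Algebra.IsIntegral ℂ E := Algebra.isIntegral_of_surjective h2
  rw [trdeg_eq_zero] at htr
  exact zero_ne_one htr

include f htr hε hγ in
/-- The divisor of a rational function on the normalization, pushed forward. -/
theorem core : ∃ (_ : IsLocallyNoetherian γ.normalization)
    (e : γ.normalization.functionField ≃+* E),
    ∀ (ν : γ.normalization ⟶ S) [IsIntegralHom ν] (g : S ⟶ Spec (.of ℂ)) [LocallyOfFiniteType g]
      [IsSeparated g] (x : S), x ≠ ν (genericPoint γ.normalization) →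
      (∀ y, ν y = x → IsClosed ({y} : Set γ.normalization) ∧ ν.residueDegree y = 1) ∧
      ∀ u, u ≠ 0 → ∑ᶠ y : {y : γ.normalization // ν y = x}, Scheme.ord u y.1 =
        divCoeff (γ.toNormalization ≫ ν) (e u) x := by
  have hN := noeth γ f htr ε hε hγ
  obtain ⟨e, he⟩ := exists_equiv γ f htr ε hε hγ
  refine ⟨hN, e, fun ν _ g _ _ x hx => ?_⟩
  have hD := dvr γ f htr ε hε hγ
  have hne : ∀ y, ν y = x → y ≠ genericPoint γ.normalization := fun y hy h => hx (h ▸ hy.symm)
  have hsep : γ.normalization.IsSeparated := by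
    rw [Scheme.isSeparated_iff, ← Limits.terminal.comp_from (ν ≫ g)]
    infer_instance
  refine ⟨fun y hy => ?_, fun u hu => ?_⟩
  · have h1 := isMin_of hD (hne y hy)
    exact ⟨h1, residueDegree_eq_one ν g y h1⟩
  · rw [← he]
    exact sum_eq e ν x (fun y hy => hD y (hne y hy)) u hu

include htr hε hγ in
/-- The form for a closed curve `j : C ⟶ S`. -/
theorem core_closed (j : C ⟶ S) [IsClosedImmersion j] (g : S ⟶ Spec (.of ℂ))
    [LocallyOfFiniteType g] [IsSeparated g] : ∃ (_ : IsLocallyNoetherian γ.normalization)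
    (e : γ.normalization.functionField ≃+* E), ∀ u, u ≠ 0 → ∀ x : S, IsClosed ({x} : Set S) →
      ∑ᶠ y : {y : γ.normalization // (γ.fromNormalization ≫ j) y = x},
        ((γ.fromNormalization ≫ j).residueDegree y.1 : ℤ) * Scheme.ord u y.1 =
        divCoeff (γ ≫ j) (e u) x := by
  obtain ⟨hN, e, h⟩ := core (S := S) γ f htr ε hε hγ
  refine ⟨hN, e, fun u hu x hx => ?_⟩
  have h1 : x ≠ (γ.fromNormalization ≫ j) (genericPoint γ.normalization) := by
    intro h2
    apply not_closed γ f htr ε hε hγ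
    have h3 : x = j p := by
      rw [h2, Scheme.Hom.comp_apply, from_gen, pt_eq γ ε hε hγ]
    have h4 := hx.preimage j.continuous
    rw [h3, ← Set.image_singleton, Set.preimage_image_eq _ j.isClosedEmbedding.injective] at h4
    exact h4
  obtain ⟨h5, h6⟩ := h (γ.fromNormalization ≫ j) g x h1
  have h7 := h6 u hu
  rw [Scheme.Hom.toNormalization_fromNormalization_assoc] at h7
  rw [← h7]
  exact finsum_congr fun y => by rw [(h5 y.1 y.2).2, Nat.cast_one, one_mul]

/-- The coefficients of a divisor do not change under an isomorphism of the fields. -/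
theorem divCoeff_equiv {E' : Type} [Field E'] (σ : E ≃+* E') (t : Spec (.of E) ⟶ S) (u : E)
    (x : S) : divCoeff (Spec.map (CommRingCat.ofHom σ.toRingHom) ≫ t) (σ u) x = divCoeff t u x := by
  have key : ∀ {F F' : Type} [Field F] [Field F'] (τ : F ≃+* F') (v : Place F),
      ∃ (w : Place F') (φ : v.ring ≃+* w.ring), (∀ a, (φ a : F') = τ a) := by
    intro F F' _ _ τ v
    have := v.dvr
    letI : Algebra v.ring F' := (τ.toRingHom.comp (algebraMap v.ring F)).toAlgebra
    have : IsFractionRing v.ring F' :=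
      IsLocalization.isLocalization_of_algEquiv (nonZeroDivisors v.ring)
        (AlgEquiv.ofRingEquiv (f := τ) fun a => rfl)
    exact exists_place v.ring F'
  have cen : ∀ {F F' : Type} [Field F] [Field F'] (τ : F ≃+* F') (v : Place F) (w : Place F')
      (φ : v.ring ≃+* w.ring), (∀ a, (φ a : F') = τ a) → ∀ (s : Spec (.of F) ⟶ S),
      IsCenter s v x → IsCenter (Spec.map (CommRingCat.ofHom τ.toRingHom) ≫ s) w x := by
    rintro F F' _ _ τ v w φ hφ s ⟨l, rfl, rfl⟩
    let ψ : CommRingCat.of v.ring ⟶ CommRingCat.of w.ring := CommRingCat.ofHom φ.toRingHom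
    have : IsLocalHom ψ.hom := isLocalHom_toRingHom φ
    refine ⟨Spec.map ψ ≫ l, ?_, congrArg l (Spec_closedPoint (f := ψ))⟩
    rw [← Category.assoc, ← Category.assoc, ← Spec.map_comp, ← Spec.map_comp]
    congr 2
    ext a
    exact hφ a
  choose W φ hφ using key σ
  let Φ : {v : Place E // IsCenter t v x} →
      {w : Place E' // IsCenter (Spec.map (CommRingCat.ofHom σ.toRingHom) ≫ t) w x} :=
    fun v => ⟨W v.1, cen σ v.1 _ (φ v.1) (hφ v.1) t v.2⟩
  have hle : ∀ (v : Place E) (z : E), z ∈ v.ring ↔ σ z ∈ (W v).ring := fun v z =>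
    ⟨fun h => hφ v ⟨z, h⟩ ▸ (φ v ⟨z, h⟩).2, fun h => by
      obtain ⟨a, ha⟩ := (φ v).surjective ⟨σ z, h⟩
      have h1 := hφ v a
      rw [ha] at h1
      have h2 : z = a := σ.injective h1
      rw [h2]
      exact a.2⟩
  refine (finsum_eq_of_bijective Φ ⟨fun v v' h => ?_, fun w => ?_⟩ fun v => ?_).symm
  · have h1 : W v.1 = W v'.1 := congrArg Subtype.val h
    exact Subtype.ext (place_ext fun z hz => (hle _ z).2 (h1 ▸ (hle _ z).1 hz))
  · obtain ⟨v, ψ, hψ⟩ := key σ.symm w.1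
    have h1 := cen σ.symm w.1 v ψ hψ _ w.2
    have h2 : Spec.map (CommRingCat.ofHom σ.symm.toRingHom) ≫
        Spec.map (CommRingCat.ofHom σ.toRingHom) ≫ t = t := by
      rw [← Category.assoc, ← Spec.map_comp]
      have h3 : CommRingCat.ofHom σ.toRingHom ≫ CommRingCat.ofHom σ.symm.toRingHom = 𝟙 _ := by
        ext a
        exact σ.symm_apply_apply a
      rw [h3, Spec.map_id, Category.id_comp]
    rw [h2] at h1
    refine ⟨⟨v, h1⟩, Subtype.ext (place_ext (v := w.1) fun z hz => ?_).symm⟩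
    have h4 : σ.symm z ∈ v.ring := hψ ⟨z, hz⟩ ▸ (ψ ⟨z, hz⟩).2
    have h5 := (hle v _).1 h4
    rwa [σ.apply_symm_apply] at h5
  · have h1 := v.1.dvr
    have h2 := (W v.1).dvr
    exact congrArg WithZero.log
      (ordFrac_map (φ v.1) σ.toRingHom (fun a => (hφ v.1 a).symm) u).symm

end Vale.Agent.P297L1
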