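import Vale.Agent.P297L1.Core
import Mathlib.RingTheory.Ideal.HasGoingUp
import Mathlib.RingTheory.KrullDimension.Polynomial
import Mathlib.RingTheory.LocalProperties.Reduced
import Mathlib.Topology.KrullDimension

/-!
# Integral curves and their generic points
-/

set_option linter.all false

open CategoryTheory AlgebraicGeometry

namespace Vale.Agent.P297L1

open Vale.Agent.P297

theorem dim_alg (k A K : Type) [Field k] [CommRing A] [IsDomain A] [Algebra k A]
    [Algebra.FiniteType k A] [Field K] [Algebra A K] [IsFractionRing A K] [Algebra k K]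
    [IsScalarTower k A K] : ∃ s : ℕ, Algebra.trdeg k K = s ∧ ringKrullDim A = s := by
  obtain ⟨s, g, ginj, gint⟩ := exists_integral_inj_algHom_of_fg k A
  let P := MvPolynomial (Fin s) k
  let _ : Algebra P A := g.toRingHom.toAlgebra
  have : Algebra.IsIntegral P A := ⟨gint⟩
  have : IsScalarTower k P A := .of_algebraMap_eq fun c => (g.commutes c).symm
  have : FaithfulSMul P A := (faithfulSMul_iff_algebraMap_injective _ _).2 ginj
  refine ⟨s, ?_, ?_⟩
  · have := IsLocalization.isAlgebraic K (nonZeroDivisors A)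
    rw [← trdeg_add_eq k A (A := K), trdeg_eq_zero (R := A), add_zero,
      ← trdeg_add_eq k P (A := A), trdeg_eq_zero (R := P), add_zero,
      MvPolynomial.trdeg_of_isDomain]
    simp
  have h : ringKrullDim P = s := by
    rw [MvPolynomial.ringKrullDim_of_isNoetherianRing, ringKrullDim_eq_zero_of_field]
    simp
  rw [← h]
  refine le_antisymm (Order.krullDim_le_of_strictMono
    (fun p => PrimeSpectrum.comap (algebraMap P A) p) fun p q hpq =>
      Ideal.IsIntegral.comap_lt_comap hpq) (iSup_le fun l => ?_)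
  obtain ⟨Q, hQ⟩ := RingHom.IsIntegral.comap_surjective (f := algebraMap P A) gint ginj l.head
  have hlo : Q.asIdeal.LiesOver l.head.asIdeal := ⟨by rw [← hQ]; rfl⟩
  obtain ⟨L, hL, -⟩ := Ideal.exists_ltSeries_of_hasGoingUp l Q.asIdeal
  rw [← hL]
  exact Order.LTSeries.length_le_krullDim L

variable {C S : Scheme.{0}}

/-- The transcendence degree of the function field. -/
noncomputable def td [IsIntegral C] (f : C ⟶ Spec (.of ℂ)) : Cardinal :=
  letI := (constHom f (C.fromSpecStalk (genericPoint C))).toAlgebra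
  Algebra.trdeg ℂ C.functionField

theorem dim_chart [IsIntegral C] (f : C ⟶ Spec (.of ℂ)) [LocallyOfFiniteType f] {U : C.Opens}
    (hU : IsAffineOpen U) [hne : Nonempty U] :
    ∃ s : ℕ, td f = s ∧ ringKrullDim Γ(C, U) = s := by
  letI : Algebra ℂ C.functionField := (constHom f (C.fromSpecStalk (genericPoint C))).toAlgebra
  let c : CommRingCat.of ℂ ⟶ Γ(C, U) := (Scheme.ΓSpecIso _).inv ≫ f.appLE ⊤ U le_top
  letI : Algebra ℂ Γ(C, U) := c.hom.toAlgebra
  have hft : Algebra.FiniteType ℂ Γ(C, U) :=
    (f.finiteType_appLE (isAffineOpen_top _) hU le_top).comp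
      (RingHom.FiniteType.of_surjective _
        (Scheme.ΓSpecIso (.of ℂ)).symm.commRingCatIsoToRingEquiv.surjective)
  have := functionField_isFractionRing_of_isAffineOpen C U hU
  have hg : genericPoint C ∈ U :=
    ((genericPoint_spec C).mem_open_set_iff U.isOpen).mpr (by simpa using hne)
  let γ : Spec (.of C.functionField) ⟶ C := C.fromSpecStalk (genericPoint C)
  have hγ : Spec.map (𝟙 _ : C.presheaf.stalk (genericPoint C) ⟶ .of C.functionField) ≫
      C.fromSpecStalk (genericPoint C) = γ :=
    (congrArg (· ≫ γ) (Spec.map_id _)).trans (Category.id_comp _)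
  have h : ⊤ ≤ γ ⁻¹ᵁ U := top_le (by
    rw [pt_eq γ _ Function.surjective_id hγ]
    exact hg)
  have : IsScalarTower ℂ Γ(C, U) C.functionField := .of_algebraMap_eq fun a => by
    have h2 : c ≫ ev γ U h = Spec.preimage (γ ≫ f) := by
      rw [← ev_spec (γ ≫ f) le_top, ← appLE_ev γ f rfl ⊤ U le_top h le_top, Category.assoc]
    rw [← germ_ev _ hγ U hg h] at h2
    exact (congrArg (fun φ => φ.hom a) h2).symm
  exact dim_alg ℂ Γ(C, U) C.functionField

theorem exists_dim [IsIntegral C] (f : C ⟶ Spec (.of ℂ)) [LocallyOfFiniteType f] :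
    ∃ s : ℕ, td f = s ∧ topologicalKrullDim C = s := by
  have ch : ∀ x : C, ∃ U : C.Opens, IsAffineOpen U ∧ x ∈ U := fun x => by
    obtain ⟨_, ⟨U, hU, rfl⟩, hx, -⟩ :=
      C.isBasis_affineOpens.exists_subset_of_mem_open (Set.mem_univ x) isOpen_univ
    exact ⟨U, hU, hx⟩
  obtain ⟨U, hU, hx⟩ := ch (genericPoint C)
  have : Nonempty U := ⟨⟨_, hx⟩⟩
  obtain ⟨s, h1, h2⟩ := dim_chart f hU
  refine ⟨s, h1, le_antisymm ?_ ?_⟩
  · have e : topologicalKrullDim C = Order.krullDim C :=
      Order.krullDim_eq_of_orderIso (irreducibleSetEquivPoints (α := C))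
    rw [e, Order.krullDim_eq_iSup_coheight]
    refine iSup_le fun x => ?_
    obtain ⟨W, hW, hx⟩ := ch x
    have : Nonempty W := ⟨⟨_, hx⟩⟩
    obtain ⟨s', h3, h4⟩ := dim_chart f hW
    obtain rfl : s = s' := by exact_mod_cast h1.symm.trans h3
    have h5 := hW.isLocalization_stalk ⟨x, hx⟩
    let _ := TopCat.Presheaf.algebra_section_stalk C.presheaf (U := W) ⟨x, hx⟩
    rw [← ringKrullDim_stalk_eq_coheight, ← h4, IsLocalization.AtPrime.ringKrullDim_eq_height
      (hW.primeIdealOf ⟨x, hx⟩).asIdeal (C.presheaf.stalk x)]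
    exact Ideal.height_le_ringKrullDim_of_isPrime
  · rw [← h2, ← PrimeSpectrum.topologicalKrullDim_eq_ringKrullDim]
    exact hU.fromSpec.isOpenEmbedding.isInducing.topologicalKrullDim_le

theorem td_iff [IsIntegral C] (f : C ⟶ Spec (.of ℂ)) [LocallyOfFiniteType f] :
    td f = 1 ↔ topologicalKrullDim C = 1 := by
  obtain ⟨s, h1, h2⟩ := exists_dim f
  rw [h1, h2]
  exact Nat.cast_eq_one.trans Nat.cast_eq_one.symm

/-- The residue field of the generic point of a closed integral subscheme. -/
theorem exists_sigma [IsIntegral C] (j : C ⟶ S) [IsClosedImmersion j] (f : S ⟶ Spec (.of ℂ)) :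
    ∃ σ : S.residueField (j (genericPoint C)) ≃+* C.functionField,
      Spec.map (CommRingCat.ofHom σ.toRingHom) ≫ S.fromSpecResidueField _ =
        C.fromSpecStalk (genericPoint C) ≫ j ∧
      (IsCurvePoint f (j (genericPoint C)) ↔ td (j ≫ f) = 1) := by
  let φ : S.presheaf.stalk (j (genericPoint C)) ⟶ .of C.functionField := j.stalkMap _
  have hφ : IsLocalHom φ.hom := inferInstanceAs (IsLocalHom (j.stalkMap (genericPoint C)).hom)
  let τ : S.residueField (j (genericPoint C)) ⟶ .of C.functionField := Scheme.descResidueField φ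
  have h1 : Spec.map τ ≫ S.fromSpecResidueField _ = C.fromSpecStalk (genericPoint C) ≫ j :=
    (Scheme.descResidueField_fromSpecResidueField S φ).trans
      (Scheme.SpecMap_stalkMap_fromSpecStalk j)
  let τ' : S.residueField (j (genericPoint C)) →+* C.functionField := τ.hom
  have hb : Function.Bijective τ' := ⟨τ'.injective, fun z => by
    obtain ⟨s, rfl⟩ := j.stalkMap_surjective (genericPoint C) z
    exact ⟨(S.residue _).hom s,
      congrArg (fun ψ => ψ.hom s) (Scheme.residue_descResidueField φ)⟩⟩
  refine ⟨RingEquiv.ofBijective τ' hb, h1, ?_⟩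
  letI := (constHom f (S.fromSpecResidueField (j (genericPoint C)))).toAlgebra
  letI : Algebra ℂ C.functionField :=
    (constHom (j ≫ f) (C.fromSpecStalk (genericPoint C))).toAlgebra
  have h2 : Spec.preimage (S.fromSpecResidueField (j (genericPoint C)) ≫ f) ≫ τ =
      Spec.preimage (C.fromSpecStalk (genericPoint C) ≫ j ≫ f) := by
    apply Spec.map_injective
    rw [Spec.map_comp, Spec.map_preimage, ← Category.assoc, h1, Category.assoc]
    exact (Spec.map_preimage _).symm
  let e : S.residueField (j (genericPoint C)) ≃ₐ[ℂ] C.functionField :=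
    AlgEquiv.ofRingEquiv (f := RingEquiv.ofBijective τ' hb) fun a =>
      congrArg (fun ψ => ψ.hom a) h2
  have h3 := e.trdeg_eq
  exact ⟨fun h => h3.symm.trans h, fun h => h3.trans h⟩

/-- Every point is the generic point of a closed integral subscheme. -/
theorem exists_sub (η : S) : ∃ (C : Scheme.{0}) (j : C ⟶ S) (_ : IsIntegral C),
    IsClosedImmersion j ∧ j (genericPoint C) = η := by
  let γ := S.fromSpecResidueField η
  have h1 : IsReduced γ.image := by
    have : ∀ x : γ.image, _root_.IsReduced (γ.image.presheaf.stalk x) := by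
      intro x
      obtain ⟨_, ⟨U, hU, rfl⟩, hx, -⟩ := S.isBasis_affineOpens.exists_subset_of_mem_open
        (Set.mem_univ (γ.imageι x)) isOpen_univ
      have hV := hU.preimage γ.imageι
      have hr : _root_.IsReduced Γ(γ.image, γ.imageι ⁻¹ᵁ U) :=
        isReduced_of_injective (γ.toImage.app (γ.imageι ⁻¹ᵁ U)).hom
          (γ.toImage_app_injective ⟨U, hU⟩)
      letI := γ.image.presheaf.algebra_section_stalk (U := γ.imageι ⁻¹ᵁ U) ⟨x, hx⟩
      have hl := hV.isLocalization_stalk ⟨x, hx⟩
      exact isReduced_localizationPreserves (hV.primeIdealOf ⟨x, hx⟩).asIdeal.primeCompl _ hr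
    exact isReduced_of_isReduced_stalk _
  let pt : Spec (S.residueField η) := IsLocalRing.closedPoint (S.residueField η)
  have h2 : Set.range γ.toImage = {γ.toImage pt} := by
    ext z
    constructor
    · rintro ⟨a, rfl⟩
      have h3 : a = pt := Subsingleton.elim (α := PrimeSpectrum (S.residueField η)) _ _
      rw [h3]
      rfl
    · rintro rfl
      exact ⟨_, rfl⟩
  have h3 := γ.toImage.denseRange.closure_range
  rw [h2] at h3
  have h4 : IrreducibleSpace γ.image := by
    rw [irreducibleSpace_def]
    have h5 := (isIrreducible_singleton (x := γ.toImage pt)).closure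
    rw [h3] at h5
    exact h5
  have h5 : IsIntegral γ.image := isIntegral_of_irreducibleSpace_of_isReduced _
  refine ⟨γ.image, γ.imageι, h5, inferInstance, ?_⟩
  have h6 : genericPoint γ.image = γ.toImage pt := (genericPoint_spec γ.image).eq h3
  rw [h6]
  exact (congrArg (fun g : Spec (S.residueField η) ⟶ S => g pt) γ.toImage_imageι).trans
    (Scheme.fromSpecResidueField_apply η _)

/-- The pushforward of a principal divisor from the normalization of a closed curve. -/
theorem push_curve [IsIntegral C] (j : C ⟶ S) [IsClosedImmersion j] (f : S ⟶ Spec (.of ℂ))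
    [IsProper f] (h : td (j ≫ f) = 1) :
    ∃ (_ : IsLocallyNoetherian (C.fromSpecStalk (genericPoint C)).normalization)
      (e : (C.fromSpecStalk (genericPoint C)).normalization.functionField ≃+*
        S.residueField (j (genericPoint C))), ∀ u, u ≠ 0 → ∀ x : S, IsClosed ({x} : Set S) →
      ∑ᶠ y : {y : (C.fromSpecStalk (genericPoint C)).normalization //
          ((C.fromSpecStalk (genericPoint C)).fromNormalization ≫ j) y = x},
        (((C.fromSpecStalk (genericPoint C)).fromNormalization ≫ j).residueDegree y.1 : ℤ) *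
          Scheme.ord u y.1 = divCoeff (S.fromSpecResidueField (j (genericPoint C))) (e u) x := by
  obtain ⟨σ, hσ, -⟩ := exists_sigma j f
  let γ : Spec (.of C.functionField) ⟶ C := C.fromSpecStalk (genericPoint C)
  have hγ : Spec.map (𝟙 _ : C.presheaf.stalk (genericPoint C) ⟶ .of C.functionField) ≫
      C.fromSpecStalk (genericPoint C) = γ :=
    (congrArg (· ≫ γ) (Spec.map_id _)).trans (Category.id_comp _)
  obtain ⟨hN, e, he⟩ := core_closed (E := C.functionField) γ (j ≫ f) h _ Function.surjective_id
    hγ j f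
  refine ⟨hN, e.trans σ.symm, fun u hu x hx => (he u hu x hx).trans ?_⟩
  have h1 := divCoeff_equiv (E := S.residueField (j (genericPoint C))) σ
    (S.fromSpecResidueField (j (genericPoint C))) (σ.symm (e u)) x
  rw [σ.apply_symm_apply] at h1
  exact (congrArg (fun g => divCoeff g (e u) x) hσ.symm).trans h1

/-- Principal cycles: closed integral curves and Mathlib's normalization, or places. -/
theorem rat_gen (f : S ⟶ Spec (.of ℂ)) [IsProper f] (z : ZeroCycle S) :
    (∃ (C : Scheme.{0}) (j : C ⟶ S) (_ : IsIntegral C) (_ : IsClosedImmersion j)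
      (_ : topologicalKrullDim C = 1)
      (_ : IsLocallyNoetherian (C.fromSpecStalk (genericPoint C)).normalization)
      (u : (C.fromSpecStalk (genericPoint C)).normalization.functionField), u ≠ 0 ∧
      ∀ x : ClosedPt S, z x = ∑ᶠ y : {y : (C.fromSpecStalk (genericPoint C)).normalization //
          ((C.fromSpecStalk (genericPoint C)).fromNormalization ≫ j) y = x.1},
        (((C.fromSpecStalk (genericPoint C)).fromNormalization ≫ j).residueDegree y.1 : ℤ) *
          Scheme.ord u y.1) ↔ IsPrincipalCycle f z := by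
  constructor
  · rintro ⟨C, j, _, _, hd, hN, u, hu, hz⟩
    have h := (td_iff (j ≫ f)).2 hd
    obtain ⟨_, e, he⟩ := push_curve j f h
    obtain ⟨σ, -, hσ⟩ := exists_sigma j f
    exact ⟨_, hσ.2 h, e u, (map_ne_zero e).2 hu, fun x => (hz x).trans (he u hu x.1 x.2)⟩
  · rintro ⟨η, hη, u, hu, hz⟩
    obtain ⟨C, j, hC, hj, rfl⟩ := exists_sub η
    obtain ⟨σ, -, hσ⟩ := exists_sigma j f
    have h := hσ.1 hη
    obtain ⟨hN, e, he⟩ := push_curve j f h
    have hu' : e.symm u ≠ 0 := (map_ne_zero e.symm).2 hu
    refine ⟨C, j, hC, hj, (td_iff (j ≫ f)).1 h, hN, e.symm u, hu', fun x => ?_⟩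
    rw [he _ hu' x.1 x.2, e.apply_symm_apply]
    exact hz x

end Vale.Agent.P297L1
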