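import Vale.Agent.P297L1.Core
import Vale.Agent.P297L41.Rows
import Vale.Agent.P299.G.Scheme

/-!
# The row NORM
-/

set_option linter.all false

open CategoryTheory AlgebraicGeometry

namespace Vale.Agent.P297L1

open Vale.Agent.P297 Vale.Agent.P297L

theorem push_eq {S : Scheme.{0}} (f : S ⟶ Spec (.of ℂ)) [IsProper f] (η : S)
    (hη : IsCurvePoint f η) : ∃ (_ : IsLocallyNoetherian (Nor η))
    (e : (Nor η).functionField ≃+* S.residueField η), ∀ u, u ≠ 0 →
      ∀ c : AlgebraicCycle (Nor η) ℤ, (∀ y, c y = Scheme.ord u y) → ∀ x : ClosedPt S,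
        AlgebraicCycle.map (nu η) Order.height Order.height c x =
          divCoeff (S.fromSpecResidueField η) (e u) x := by
  obtain ⟨hN, e, h⟩ := core (S := S) (E := S.residueField η) (S.fromSpecResidueField η) f hη
    (S.residue η) (S.residue_surjective η) rfl
  refine ⟨hN, e, fun u hu c hc x => ?_⟩
  have hx : IsClosed ({x.1} : Set S) := x.2
  have h1 : x.1 ≠ nu η (genericPoint (Nor η)) := by
    intro h2
    apply not_closed (E := S.residueField η) (S.fromSpecResidueField η) f hη
      (S.residue η) (S.residue_surjective η) rfl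
    have h3 := (from_gen (E := S.residueField η) (S.fromSpecResidueField η)).trans
      (Scheme.fromSpecResidueField_apply η _)
    rw [← h3]
    exact h2 ▸ hx
  obtain ⟨h5, h6⟩ := h (nu η) f x.1 h1
  have h7 := h6 u hu
  rw [Scheme.Hom.toNormalization_fromNormalization] at h7
  refine Eq.trans ?_ h7
  have hmin : ∀ {Y : Scheme.{0}} (y : Y), IsClosed ({y} : Set Y) → Order.height y = 0 := by
    intro Y y hy
    rw [Order.height_eq_zero]
    intro z hz
    have h8 : z ∈ closure ({y} : Set Y) := specializes_iff_mem_closure.1 hz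
    rw [hy.closure_eq] at h8
    exact h8.ge
  refine (finsum_subtype_eq_finsum_cond
    (f := fun y => c y * (AlgebraicCycle.mapCoeff (nu η) Order.height Order.height y : ℤ))
    (p := fun y => nu η y = x.1)).symm.trans (finsum_congr fun y => ?_)
  obtain ⟨h8, h9⟩ := h5 y.1 y.2
  have h10 : Order.height y.1 = Order.height (nu η y.1) := by
    rw [hmin _ h8, y.2, hmin _ hx]
  rw [hc, AlgebraicCycle.mapCoeff, if_pos h10, h9, Nat.cast_one, mul_one]

theorem norm : NORM := by
  intro S f hf z
  constructor
  · rintro ⟨η, hη, hN, u, c, hu, hc, hz⟩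
    obtain ⟨_, e, h⟩ := @push_eq S f hf η hη
    exact ⟨η, hη, e u, (map_ne_zero e).2 hu, fun x => (hz x).trans (h u hu c hc x)⟩
  · rintro ⟨η, hη, u, hu, hz⟩
    obtain ⟨hN, e, h⟩ := @push_eq S f hf η hη
    have hu' : e.symm u ≠ 0 := (map_ne_zero e.symm).2 hu
    have h0 : CompactSpace P299.S.SpecC := inferInstanceAs (CompactSpace (Spec (.of ℂ) : Scheme.{0}))
    have h1 : CompactSpace S := QuasiCompact.compactSpace_of_compactSpace f
    have h2 : CompactSpace (Nor η) := QuasiCompact.compactSpace_of_compactSpace (nu η)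
    have h3 : IsNoetherian (Nor η) := {}
    let c : AlgebraicCycle (Nor η) ℤ :=
      { toFun := Scheme.ord (e.symm u)
        supportWithinDomain' := Set.subset_univ _
        supportLocallyFiniteWithinDomain' := fun y _ => ⟨Set.univ, Filter.univ_mem,
          (P299.G.finite_ord_ne_zero (e.symm u) hu').subset Set.inter_subset_right⟩ }
    refine ⟨η, hη, hN, e.symm u, c, hu', fun y => rfl, fun x => ?_⟩
    rw [h (e.symm u) hu' c (fun y => rfl) x, e.apply_symm_apply]
    exact hz x

end Vale.Agent.P297L1
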