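import Vale.Agent.P297L1.Crv
import Vale.Agent.P297M75.Defs
import Vale.Agent.P299.G.Scheme

/-!
# Rational equivalence by normalizations of curves and by places
-/

set_option linter.all false

open CategoryTheory AlgebraicGeometry

namespace Vale.Agent.P297L1

variable {S : Scheme.{0}}

theorem rat (f : S ⟶ Spec (.of ℂ)) [IsProper f] (z : P297M.ClosedPt S →₀ ℤ) :
    P297M.IsPrincipal z ↔ P297.IsPrincipalCycle f z := by
  refine Iff.trans ⟨?_, ?_⟩ (rat_gen f z)
  · rintro ⟨C, hN, u, hu, hz⟩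
    exact ⟨C.C, C.j, C.integral, C.closed, C.dim, hN, u, hu, hz⟩
  · rintro ⟨C, j, hC, hj, hd, hN, u, hu, hz⟩
    exact ⟨⟨C, j, hj, hd⟩, hN, u, hu, hz⟩

theorem rat_eq (f : S ⟶ Spec (.of ℂ)) [IsProper f] : P297M.Rat S = P297.Rat f :=
  congrArg AddSubgroup.closure (Set.ext fun z => rat f z)

theorem fin (f : S ⟶ Spec (.of ℂ)) [IsProper f] (C : P297M.Curve S) :
    ∃ _ : IsLocallyNoetherian C.Nor, P297M.FiniteDiv C.Nor := by
  have hj := C.closed
  obtain ⟨hN, -⟩ := push_curve C.j f ((td_iff (C.j ≫ f)).2 C.dim)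
  have h1 : CompactSpace C.C := QuasiCompact.compactSpace_of_compactSpace (C.j ≫ f)
  have h2 : CompactSpace C.Nor :=
    QuasiCompact.compactSpace_of_compactSpace C.gen.fromNormalization
  have h3 : IsNoetherian C.Nor := {}
  exact ⟨hN, fun u hu => P299.G.finite_ord_ne_zero u hu⟩

end Vale.Agent.P297L1
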